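import Vale.Agent.Lib.P194.Nil

/-!
# P201: normal infinite cyclic subgroups and zero divisors
-/

open MonoidAlgebra

namespace Vale.Agent.P201

open Vale.Agent.P194

universe u v

variable {K : Type v} [Field K] {G : Type u} [Group G] (z : G)

/-- the element `z - 1` -/
noncomputable def ww (K : Type v) [Field K] {G : Type u} [Group G] (z : G) : MonoidAlgebra K G :=
  single z (1 : K) - 1

theorem coeff_left (y : MonoidAlgebra K G) (g : G) :
    (ww K z * y).coeff g = y.coeff (z⁻¹ * g) - y.coeff g := by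
  unfold ww
  rw [sub_mul, one_mul, coeff_sub, Finsupp.sub_apply,
    coeff_single_mul_eq_mul_coeff (z⁻¹ * g) (by
      intro m' _
      exact eq_inv_mul_iff_mul_eq.symm), one_mul]

theorem coeff_right (y : MonoidAlgebra K G) (g : G) :
    (y * ww K z).coeff g = y.coeff (g * z⁻¹) - y.coeff g := by
  unfold ww
  rw [mul_sub, mul_one, coeff_sub, Finsupp.sub_apply,
    coeff_mul_single_eq_coeff_mul (g * z⁻¹) (by
      intro m' _
      exact eq_mul_inv_iff_mul_eq.symm), mul_one]

theorem exists_exp (hz : ∀ m : ℤ, z ^ m = 1 → m = 0) [hN : (Subgroup.zpowers z).Normal] :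
    ∃ e : G → ℤ, ∀ g, e (z * g) = e g + 1 := by
  have h1 : ∀ g : G, ∃ m : ℤ, g = z ^ m *
      (Quotient.out : G ⧸ Subgroup.zpowers z → G) (QuotientGroup.mk' (Subgroup.zpowers z) g) := by
    intro g
    set s : G := (Quotient.out : G ⧸ Subgroup.zpowers z → G)
      (QuotientGroup.mk' (Subgroup.zpowers z) g) with hs
    have h2 : (QuotientGroup.mk' (Subgroup.zpowers z)) s =
        (QuotientGroup.mk' (Subgroup.zpowers z)) g :=
      Quotient.out_eq (QuotientGroup.mk' (Subgroup.zpowers z) g)
    have h3 : (QuotientGroup.mk' (Subgroup.zpowers z)) (g * s⁻¹) = 1 := by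
      rw [map_mul, map_inv, h2, mul_inv_cancel]
    obtain ⟨m, hm⟩ := Subgroup.mem_zpowers_iff.mp ((QuotientGroup.eq_one_iff _).mp h3)
    exact ⟨m, by rw [hm, inv_mul_cancel_right]⟩
  choose e he using h1
  refine ⟨e, fun g => ?_⟩
  have h4 : QuotientGroup.mk' (Subgroup.zpowers z) (z * g) =
      QuotientGroup.mk' (Subgroup.zpowers z) g := by
    rw [map_mul]
    have h5 : QuotientGroup.mk' (Subgroup.zpowers z) z = 1 :=
      (QuotientGroup.eq_one_iff _).mpr (Subgroup.mem_zpowers z)
    rw [h5, one_mul]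
  have h6 := he (z * g)
  have h7 := he g
  rw [h4] at h6
  set s : G := (Quotient.out : G ⧸ Subgroup.zpowers z → G)
      (QuotientGroup.mk' (Subgroup.zpowers z) g) with hs
  have h8 : z ^ (e (z * g)) * s = z ^ (1 + e g) * s := by
    rw [← h6, zpow_add, zpow_one, mul_assoc, ← h7]
  have h9 := mul_right_cancel h8
  have h10 : z ^ (e (z * g) - (1 + e g)) = 1 := by
    rw [zpow_sub, h9, mul_inv_cancel]
  have h11 := hz _ h10
  omega

/-- the width of `w ^ k * y` is at least `k` -/
theorem width (e : G → ℤ) (he : ∀ g, e (z * g) = e g + 1) (k : ℕ) (y : MonoidAlgebra K G)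
    (hy : y ≠ 0) : ∃ g1 ∈ (ww K z ^ k * y).coeff.support, ∃ g2 ∈ (ww K z ^ k * y).coeff.support,
      (k : ℤ) ≤ e g1 - e g2 := by
  induction k with
  | zero =>
    have h3 : y.coeff ≠ 0 := fun h => hy (coeff_eq_zero.mp h)
    obtain ⟨t, ht⟩ := Finsupp.support_nonempty_iff.mpr h3
    rw [pow_zero, one_mul]
    exact ⟨t, ht, t, ht, by simp⟩
  | succ k ih =>
    obtain ⟨g1, hg1, g2, hg2, h12⟩ := ih
    set u := ww K z ^ k * y with hu
    obtain ⟨a, ha, hamax⟩ := Finset.exists_max_image u.coeff.support e ⟨g1, hg1⟩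
    obtain ⟨b, hb, hbmin⟩ := Finset.exists_min_image u.coeff.support e ⟨g1, hg1⟩
    have h1 : ww K z ^ (k + 1) * y = ww K z * u := by
      rw [hu, pow_succ', mul_assoc]
    rw [h1]
    refine ⟨z * a, ?_, b, ?_, ?_⟩
    · rw [Finsupp.mem_support_iff, coeff_left, inv_mul_cancel_left]
      have h2 : u.coeff (z * a) = 0 := by
        by_contra hc
        have := hamax _ (Finsupp.mem_support_iff.mpr hc)
        rw [he] at this
        omega
      rw [h2, sub_zero]
      exact Finsupp.mem_support_iff.mp ha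
    · rw [Finsupp.mem_support_iff, coeff_left]
      have h2 : u.coeff (z⁻¹ * b) = 0 := by
        by_contra hc
        have h3 := hbmin _ (Finsupp.mem_support_iff.mpr hc)
        have h4 := he (z⁻¹ * b)
        rw [mul_inv_cancel_left] at h4
        omega
      rw [h2, zero_sub]
      exact neg_ne_zero.mpr (Finsupp.mem_support_iff.mp hb)
    · have h3 := hamax g1 hg1
      have h4 := hbmin g2 hg2
      rw [he]
      push_cast
      omega

/-- `z - 1` is left regular -/
theorem left_reg (e : G → ℤ) (he : ∀ g, e (z * g) = e g + 1) (y : MonoidAlgebra K G)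
    (hy : ww K z * y = 0) : y = 0 := by
  by_contra hne
  obtain ⟨g1, hg1, -⟩ := width z e he 1 y hne
  rw [pow_one, hy] at hg1
  simp at hg1

/-- `z - 1` is right regular -/
theorem right_reg (e : G → ℤ) (he : ∀ g, e (z * g) = e g + 1) (y : MonoidAlgebra K G)
    (hy : y * ww K z = 0) : y = 0 := by
  by_contra hne
  have h3 : y.coeff ≠ 0 := fun h => hne (coeff_eq_zero.mp h)
  obtain ⟨a, ha, hamax⟩ := Finset.exists_max_image y.coeff.support (fun g => e g⁻¹)
    (Finsupp.support_nonempty_iff.mpr h3)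
  have h1 := coeff_right z y a
  have h2 : y.coeff (a * z⁻¹) = 0 := by
    by_contra hc
    have h4 := hamax _ (Finsupp.mem_support_iff.mpr hc)
    rw [mul_inv_rev, inv_inv, he] at h4
    omega
  rw [h2, hy, zero_sub] at h1
  exact neg_ne_zero.mpr (Finsupp.mem_support_iff.mp ha) h1.symm

/-- only zero is divisible by all powers -/
theorem no_inf (e : G → ℤ) (he : ∀ g, e (z * g) = e g + 1) (x : MonoidAlgebra K G) (hx : x ≠ 0) :
    ∃ k : ℕ, ¬ ∃ y, x = ww K z ^ k * y := by
  classical
  by_contra hcon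
  push Not at hcon
  have h3 : x.coeff ≠ 0 := fun h => hx (coeff_eq_zero.mp h)
  obtain ⟨a, ha, hamax⟩ := Finset.exists_max_image x.coeff.support e
    (Finsupp.support_nonempty_iff.mpr h3)
  obtain ⟨b, hb, hbmin⟩ := Finset.exists_min_image x.coeff.support e
    (Finsupp.support_nonempty_iff.mpr h3)
  obtain ⟨y, hy⟩ := hcon ((e a - e b).toNat + 1)
  have hy0 : y ≠ 0 := by
    rintro rfl
    exact hx (by rw [hy, mul_zero])
  obtain ⟨g1, hg1, g2, hg2, h12⟩ := width z e he ((e a - e b).toNat + 1) y hy0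
  rw [← hy] at hg1 hg2
  have h4 := hamax g1 hg1
  have h5 := hbmin g2 hg2
  push_cast at h12
  omega

end Vale.Agent.P201
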