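import Vale.Agent.Lib.P201.Cyc

/-!
# P201: group algebras of extensions with infinite cyclic kernel
-/

open MonoidAlgebra

namespace Vale.Agent.P201

open Vale.Agent.P194

universe u v

variable {K : Type v} [Field K] {G : Type u} [Group G] (z : G)

theorem zpow_fac (m : ℤ) : (∃ q : MonoidAlgebra K G, single (z ^ m) (1 : K) - 1 = ww K z * q) ∧
    ∃ q : MonoidAlgebra K G, single (z ^ m) (1 : K) - 1 = q * ww K z := by
  have hnat : ∀ n : ℕ, (∃ q : MonoidAlgebra K G, single (z ^ n) (1 : K) - 1 = ww K z * q) ∧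
      ∃ q : MonoidAlgebra K G, single (z ^ n) (1 : K) - 1 = q * ww K z := by
    intro n
    unfold ww
    refine ⟨⟨∑ i ∈ Finset.range n, (single z (1 : K)) ^ i, ?_⟩,
      ⟨∑ i ∈ Finset.range n, (single z (1 : K)) ^ i, ?_⟩⟩
    · rw [mul_geom_sum, single_pow, one_pow]
    · rw [geom_sum_mul, single_pow, one_pow]
  rcases Int.eq_nat_or_neg m with ⟨n, rfl | rfl⟩
  · rw [zpow_natCast]
    exact hnat n
  · obtain ⟨⟨q, hq⟩, ⟨q', hq'⟩⟩ := hnat n
    have h1 : single (z ^ (-(n : ℤ))) (1 : K) - 1 =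
        (single (z ^ n) (1 : K) - 1) * (-single (z ^ (-(n : ℤ))) (1 : K)) := by
      rw [sub_mul, one_mul, mul_neg, single_mul_single, mul_one, ← zpow_natCast, ← zpow_add,
        add_neg_cancel, zpow_zero, one_def]
      abel
    have h2 : single (z ^ (-(n : ℤ))) (1 : K) - 1 =
        (-single (z ^ (-(n : ℤ))) (1 : K)) * (single (z ^ n) (1 : K) - 1) := by
      rw [mul_sub, mul_one, neg_mul, single_mul_single, mul_one, ← zpow_natCast, ← zpow_add,
        neg_add_cancel, zpow_zero, one_def]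
      abel
    refine ⟨⟨q * (-single (z ^ (-(n : ℤ))) (1 : K)), ?_⟩,
      ⟨(-single (z ^ (-(n : ℤ))) (1 : K)) * q', ?_⟩⟩
    · rw [h1, hq, mul_assoc]
    · rw [h2, hq', mul_assoc]

variable [hN : (Subgroup.zpowers z).Normal]

/-- reduction modulo `z` -/
noncomputable abbrev red (K : Type v) [Field K] {G : Type u} [Group G] (z : G)
    [(Subgroup.zpowers z).Normal] : MonoidAlgebra K G →+* MonoidAlgebra K (G ⧸ Subgroup.zpowers z) :=
  mapDomainRingHom K (QuotientGroup.mk' (Subgroup.zpowers z))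

theorem red_ww : red K z (ww K z) = 0 := by
  unfold ww red
  rw [map_sub, map_one]
  have h1 : mapDomainRingHom K (QuotientGroup.mk' (Subgroup.zpowers z)) (single z (1 : K)) =
      single (QuotientGroup.mk' (Subgroup.zpowers z) z) 1 := by simp
  have h2 : QuotientGroup.mk' (Subgroup.zpowers z) z = 1 :=
    (QuotientGroup.eq_one_iff _).mpr (Subgroup.mem_zpowers z)
  rw [h1, h2, one_def, sub_self]

theorem ker_fac (x : MonoidAlgebra K G) (hx : red K z x = 0) :
    (∃ y, x = ww K z * y) ∧ ∃ y, x = y * ww K z := by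
  have h1 := ker_mem (Subgroup.zpowers z) x hx
  clear hx
  unfold WW at h1
  induction h1 using AddSubmonoid.closure_induction with
  | mem x hx' =>
    obtain ⟨l, hl, g, c, rfl⟩ := hx'
    obtain ⟨a, rfl⟩ := List.length_eq_one_iff.mp hl
    rw [pr_cons, pr_nil, mul_one]
    constructor
    · obtain ⟨m, hm⟩ := Subgroup.mem_zpowers_iff.mp a.2
      obtain ⟨q, hq⟩ := (zpow_fac (K := K) z m).1
      rw [← hm, hq]
      exact ⟨q * single g c, mul_assoc _ _ _⟩
    · have h2 : g⁻¹ * (a : G) * g ∈ Subgroup.zpowers z := by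
        have := hN.conj_mem a a.2 g⁻¹
        rwa [inv_inv] at this
      obtain ⟨m, hm⟩ := Subgroup.mem_zpowers_iff.mp h2
      obtain ⟨q, hq⟩ := (zpow_fac (K := K) z m).2
      have h3 : (single (a : G) (1 : K) - 1) * single g c =
          single g c * (single (z ^ m) (1 : K) - 1) := by
        rw [hm, mul_sub, sub_mul, mul_one, one_mul, single_mul_single, single_mul_single,
          mul_one, one_mul]
        congr 2
        group
      rw [h3, hq]
      exact ⟨single g c * q, (mul_assoc _ _ _).symm⟩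
  | zero => exact ⟨⟨0, by rw [mul_zero]⟩, ⟨0, by rw [zero_mul]⟩⟩
  | add x y _ _ hx hy =>
    obtain ⟨⟨a, ha⟩, ⟨a', ha'⟩⟩ := hx
    obtain ⟨⟨b, hb⟩, ⟨b', hb'⟩⟩ := hy
    exact ⟨⟨a + b, by rw [mul_add, ← ha, ← hb]⟩, ⟨a' + b', by rw [add_mul, ← ha', ← hb']⟩⟩

theorem decomp (e : G → ℤ) (he : ∀ g, e (z * g) = e g + 1) (x : MonoidAlgebra K G) (hx : x ≠ 0) :
    ∃ (k : ℕ) (y : MonoidAlgebra K G), x = ww K z ^ k * y ∧ red K z y ≠ 0 := by
  classical
  have hex := no_inf z e he x hx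
  have h0 : Nat.find hex ≠ 0 := by
    intro h0
    have := Nat.find_spec hex
    rw [h0] at this
    exact this ⟨x, by rw [pow_zero, one_mul]⟩
  obtain ⟨k, hk⟩ := Nat.exists_eq_succ_of_ne_zero h0
  have h1 := Nat.find_min hex (m := k) (by omega)
  rw [not_not] at h1
  obtain ⟨y, hy⟩ := h1
  refine ⟨k, y, hy, fun hc => ?_⟩
  obtain ⟨y', hy'⟩ := (ker_fac z y hc).1
  apply Nat.find_spec hex
  rw [hk]
  exact ⟨y', by rw [hy, hy', Nat.succ_eq_add_one, pow_succ, mul_assoc]⟩

theorem swap (e : G → ℤ) (he : ∀ g, e (z * g) = e g + 1) (j : ℕ) (x : MonoidAlgebra K G)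
    (hx : red K z x ≠ 0) :
    ∃ x' : MonoidAlgebra K G, red K z x' ≠ 0 ∧ x * ww K z ^ j = ww K z ^ j * x' := by
  induction j with
  | zero => exact ⟨x, hx, by rw [pow_zero, mul_one, one_mul]⟩
  | succ j ih =>
    obtain ⟨x', hx', h1⟩ := ih
    have h2 : red K z (x' * ww K z) = 0 := by rw [map_mul, red_ww, mul_zero]
    obtain ⟨y, hy⟩ := (ker_fac z _ h2).1
    refine ⟨y, fun hc => ?_, ?_⟩
    · obtain ⟨y', hy'⟩ := (ker_fac z y hc).2
      have h3 : (x' - ww K z * y') * ww K z = 0 := by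
        rw [sub_mul, hy, hy', mul_assoc, sub_self]
      have h4 := sub_eq_zero.mp (right_reg z e he _ h3)
      apply hx'
      rw [h4, map_mul, red_ww, zero_mul]
    · rw [pow_succ, ← mul_assoc, h1, mul_assoc, hy, mul_assoc]

theorem dom (hz : ∀ m : ℤ, z ^ m = 1 → m = 0)
    [NoZeroDivisors (MonoidAlgebra K (G ⧸ Subgroup.zpowers z))] :
    NoZeroDivisors (MonoidAlgebra K G) := by
  obtain ⟨e, he⟩ := exists_exp z hz
  refine ⟨fun {a b} hab => ?_⟩
  by_contra hcon
  rw [not_or] at hcon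
  obtain ⟨i, a', ha, ha'⟩ := decomp z e he a hcon.1
  obtain ⟨j, b', hb, hb'⟩ := decomp z e he b hcon.2
  obtain ⟨a'', ha'', hs⟩ := swap z e he j a' ha'
  have h1 : a * b = ww K z ^ (i + j) * (a'' * b') := by
    calc a * b = ww K z ^ i * a' * (ww K z ^ j * b') := by rw [← ha, ← hb]
      _ = ww K z ^ i * (a' * ww K z ^ j) * b' := by simp only [mul_assoc]
      _ = ww K z ^ i * (ww K z ^ j * a'') * b' := by rw [hs]
      _ = ww K z ^ (i + j) * (a'' * b') := by rw [pow_add]; simp only [mul_assoc]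
  have h2 : a'' * b' ≠ 0 := by
    intro hc
    have h3 : red K z a'' * red K z b' = 0 := by rw [← map_mul, hc, map_zero]
    rcases mul_eq_zero.mp h3 with h | h
    · exact ha'' h
    · exact hb' h
  obtain ⟨g1, hg1, -⟩ := width z e he (i + j) (a'' * b') h2
  rw [← h1, hab] at hg1
  simp at hg1

end Vale.Agent.P201
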